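import Vale.Agent.P269.H207.ExpZ
import Vale.Agent.P269.H707.CITarget

/-! Uniqueness of the system of Gromov-Witten correlators of a complete intersection
whose canonical class is sufficiently positive (helper457). -/

set_option autoImplicit false

namespace Vale.Agent.P269.H457

open Vale.Agent.P269.H207 Vale.Agent.P269.H707 Finset

section general

variable {α R : Type*} [CommRing R] {par : α → ℕ}

lemma perm_zero {f : List α → R} (hf : SSym par f) {L L' : List α} (h : L.Perm L')
    (h0 : f L = 0) : f L' = 0 := by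
  induction h generalizing f with
  | nil => exact h0
  | cons x _ ih => exact ih (hf.dd x) h0
  | swap x y l =>
    have := hf [] x y l
    simp only [List.nil_append] at this
    rw [this, h0, mul_zero]
  | trans _ _ ih1 ih2 => exact ih2 hf (ih1 hf h0)

/-- refined congruence: `f [] = 0`, so that `g` is only evaluated on shorter lists -/
lemma smul2_congr_nil {f f' g g' : List α → R} (L : List α)
    (hf : ∀ M : List α, M.length ≤ L.length → f M = f' M)
    (h0 : f [] = 0)
    (hg : ∀ M : List α, M.length < L.length → g M = g' M) :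
    smul2 par f g L = smul2 par f' g' L := by
  induction L generalizing f f' g g' with
  | nil => rw [smul2_nil, smul2_nil, ← hf [] (le_refl _), h0, zero_mul, zero_mul]
  | cons x L ih =>
    rw [smul2_cons, smul2_cons]
    congr 1
    · refine smul2_congr L (fun M hM => hf _ (by simpa using hM)) (fun M hM => hg _ ?_)
      simp only [List.length_cons]; omega
    · refine ih (fun M hM => ?_) ?_ (fun M hM => hg _ (by simpa using hM))
      · rw [tw_apply, tw_apply, hf _ (hM.trans (by simp))]
      · rw [tw_apply, h0, mul_zero]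

/-- if `g` vanishes on all nonempty sublists of `L` then `f g (L) = f L * g []` -/
lemma smul2_nil_right (P : α → Prop) {f g : List α → R} (L : List α) (hL : ∀ x ∈ L, P x)
    (hg : ∀ M : List α, (∀ x ∈ M, P x) → M ≠ [] → g M = 0) :
    smul2 par f g L = f L * g [] := by
  induction L generalizing f with
  | nil => rw [smul2_nil]
  | cons x L ih =>
    rw [smul2_cons, ih (fun y hy => hL y (List.mem_cons_of_mem _ hy))]
    have : smul2 par (tw par (par x) f) (dd x g) L = 0 := by
      have key : ∀ (M : List α) (u v : List α → R), (∀ y ∈ M, P y) →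
          (∀ N : List α, (∀ y ∈ N, P y) → v N = 0) → smul2 par u v M = 0 := by
        intro M
        induction M with
        | nil => intro u v _ hv; rw [smul2_nil, hv [] (by simp), mul_zero]
        | cons z M ih2 =>
          intro u v hM hv
          rw [smul2_cons, ih2 _ _ (fun y hy => hM y (List.mem_cons_of_mem _ hy)) hv,
            ih2 _ _ (fun y hy => hM y (List.mem_cons_of_mem _ hy)), add_zero]
          intro N hN
          refine hv (z :: N) ?_
          intro y hy
          rcases List.mem_cons.mp hy with rfl | hy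
          · exact hM _ List.mem_cons_self
          · exact hN y hy
      refine key L _ _ (fun y hy => hL y (List.mem_cons_of_mem _ hy)) ?_
      intro N hN
      refine hg (x :: N) ?_ (by simp)
      intro y hy
      rcases List.mem_cons.mp hy with rfl | hy
      · exact hL _ List.mem_cons_self
      · exact hN y hy
    rw [this, add_zero]
    rfl

end general

variable {X : Target}

lemma low_congr (L : List X.V) (f f' : List X.V → ℂ)
    (h : ∀ M : List X.V, M.length = L.length → f M = f' M) : low X L f = low X L f' := by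
  induction L generalizing f f' with
  | nil => rfl
  | cons x L ih =>
    obtain ⟨m, a⟩ := x
    rw [low, low, ih (dd (m, a) f) (dd (m, a) f') (fun M hM => h _ (by simp [hM]))]
    congr 1
    split_ifs
    · rfl
    · exact h _ (by simp)

lemma lowR_congr (L : List X.V) (f f' : List X.V → ℂ)
    (h : ∀ M : List X.V, M.length = L.length → f M = f' M) : lowR X L f = lowR X L f' := by
  induction L generalizing f f' with
  | nil => rfl
  | cons x L ih =>
    obtain ⟨m, a⟩ := x
    rw [lowR, lowR, ih (dd (m, a) f) (dd (m, a) f') (fun M hM => h _ (by simp [hM]))]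
    congr 1
    split_ifs
    · rfl
    · exact Finset.sum_congr rfl fun b _ => by rw [h _ (by simp)]

/-- `lowR` vanishes on lists without descendants -/
lemma lowR_zero (L : List X.V) (f : List X.V → ℂ) (h : ∀ x ∈ L, x.1 = 0) : lowR X L f = 0 := by
  induction L generalizing f with
  | nil => rfl
  | cons x L ih =>
    obtain ⟨m, a⟩ := x
    have hm : m = 0 := h (m, a) List.mem_cons_self
    rw [lowR, if_pos hm, zero_add]
    exact ih _ (fun y hy => h y (List.mem_cons_of_mem _ hy))

/-- The divisor equation on a list of primary insertions of length at least 2, with the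
`c_1` insertion in second position. -/
lemma divisor_second {GW : ℕ → ℕ → List X.V → ℂ} (h : IsGW X GW) (c j : X.ι) (M : List X.V)
    (hM : ∀ x ∈ M, x.1 = 0) :
    ∑ b, X.R X.one b * GW 0 0 ((0, c) :: (0, b) :: (0, j) :: M)
      = if M = [] then (X.R * X.η) c j else 0 := by
  have h1 := h.divisor 0 0 ((0, c) :: (0, j) :: M)
  rw [lowR_zero] at h1
  · have h2 : ∑ b, X.R X.one b * GW 0 0 ((0, c) :: (0, b) :: (0, j) :: M)
        = ∑ b, X.R X.one b * GW 0 0 ((0, b) :: (0, c) :: (0, j) :: M) := by
      refine Finset.sum_congr rfl fun b _ => ?_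
      by_cases hb : X.R X.one b = 0
      · rw [hb, zero_mul, zero_mul]
      · have h3 := X.R_type _ _ hb
        rw [X.p_one, X.q_one] at h3
        have h4 := h.symm 0 0 [] (0, c) (0, b) ((0, j) :: M)
        simp only [List.nil_append] at h4
        rw [h4, neg_one_pow_mod _ 0, pow_zero, one_mul]
        simp only [Target.par, h3.1, h3.2]
        omega
    rw [h2, h1]
    have h5 : ¬ ((0 : ℕ) = 1 ∧ (0 : ℕ) = 0 ∧ ((0, c) :: (0, j) :: M : List X.V) = []) := by simp
    rw [if_neg h5]
    cases M with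
    | nil =>
      simp only [Nat.cast_zero, mul_zero, zero_mul, add_zero, zero_add, and_self, if_true,
        quad_two, CK, pow_one]
      rfl
    | cons y M => simp
  · intro x hx
    rcases List.mem_cons.mp hx with rfl | hx
    · rfl
    rcases List.mem_cons.mp hx with rfl | hx
    · rfl
    exact hM x hx

/-- Associativity with `c_1`: moving the class `c_1` from one insertion to another one. -/
lemma move_c1 {GW : ℕ → ℕ → List X.V → ℂ} (h : IsGW X GW) (a j : X.ι) (y : X.V) (L : List X.V)
    (hL : ∀ x ∈ y :: L, x.1 = 0) :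
    ∑ b, X.R a b * GW 0 0 ((0, b) :: (0, j) :: y :: L)
      = ∑ b, X.R j b * GW 0 0 ((0, a) :: (0, b) :: y :: L) := by
  -- the divisor equation
  have h1 := h.divisor 0 0 ((1, a) :: (0, j) :: y :: L)
  have e1 : lowR X ((1, a) :: (0, j) :: y :: L) (GW 0 0)
      = ∑ b, X.R a b * GW 0 0 ((0, b) :: (0, j) :: y :: L) := by
    rw [lowR, if_neg one_ne_zero, lowR_zero, add_zero]
    intro x hx
    rcases List.mem_cons.mp hx with rfl | hx
    · rfl
    exact hL x hx
  rw [e1] at h1
  have h5 : ¬ ((0 : ℕ) = 1 ∧ (0 : ℕ) = 0 ∧ ((1, a) :: (0, j) :: y :: L : List X.V) = []) := by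
    simp
  rw [if_neg h5] at h1
  simp only [Nat.cast_zero, mul_zero, zero_mul, zero_add, and_self, if_true, quad_more,
    add_zero] at h1
  rw [← h1]
  -- the topological recursion relation
  have h2 : ∀ b, X.R X.one b * GW 0 0 ((0, b) :: (1, a) :: (0, j) :: y :: L)
      = ∑ c, ∑ c', X.η⁻¹ c c' * (X.R X.one b *
          smul2 X.par (tw X.par (X.par (0, c') + X.par (0, j))
            (dd (0, c) (dd (0, a) (GW 0 0))))
          (dd (0, j) (dd (0, b) (dd (0, c') (GW 0 0)))) (y :: L)) := by
    intro b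
    by_cases hb : X.R X.one b = 0
    · simp [hb]
    · have h3 := X.R_type _ _ hb
      rw [X.p_one, X.q_one] at h3
      have h4 := h.symm 0 0 [] (0, b) (1, a) ((0, j) :: y :: L)
      simp only [List.nil_append] at h4
      have hpar : X.par (0, b) = 2 := by simp only [Target.par, h3.1, h3.2]
      rw [h4, neg_one_pow_mod _ 0 (by rw [hpar]; omega), pow_zero, one_mul]
      have h6 := congrFun (h.trr 0 0 a (0, b) (0, j)) (y :: L)
      simp only [dd_apply] at h6
      rw [h6]
      simp only [Finset.Nat.antidiagonal_zero, Finset.sum_singleton, Finset.sum_apply,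
        Pi.smul_apply, smul_eq_mul, Finset.mul_sum]
      refine Finset.sum_congr rfl fun c _ => Finset.sum_congr rfl fun c' _ => ?_
      rw [tw_congr (n := X.par (0, c') + X.par (0, j)) (by rw [hpar]; omega)]
      ring
  rw [Finset.sum_congr rfl fun b _ => h2 b, Finset.sum_comm]
  have h7 : ∀ c, ∑ b, ∑ c', X.η⁻¹ c c' * (X.R X.one b *
          smul2 X.par (tw X.par (X.par (0, c') + X.par (0, j))
            (dd (0, c) (dd (0, a) (GW 0 0))))
          (dd (0, j) (dd (0, b) (dd (0, c') (GW 0 0)))) (y :: L))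
      = X.R j c * GW 0 0 ((0, a) :: (0, c) :: y :: L) := by
    intro c
    rw [Finset.sum_comm]
    have h8 : ∀ c', ∑ b, X.η⁻¹ c c' * (X.R X.one b *
          smul2 X.par (tw X.par (X.par (0, c') + X.par (0, j))
            (dd (0, c) (dd (0, a) (GW 0 0))))
          (dd (0, j) (dd (0, b) (dd (0, c') (GW 0 0)))) (y :: L))
        = X.η⁻¹ c c' * (X.R * X.η) c' j * GW 0 0 ((0, a) :: (0, c) :: y :: L) := by
      intro c'
      rw [← Finset.mul_sum]
      have h9 : ∀ b, X.R X.one b * smul2 X.par (tw X.par (X.par (0, c') + X.par (0, j))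
            (dd (0, c) (dd (0, a) (GW 0 0))))
          (dd (0, j) (dd (0, b) (dd (0, c') (GW 0 0)))) (y :: L)
          = smul2 X.par (tw X.par (X.par (0, c') + X.par (0, j))
            (dd (0, c) (dd (0, a) (GW 0 0))))
          (X.R X.one b • dd (0, j) (dd (0, b) (dd (0, c') (GW 0 0)))) (y :: L) := by
        intro b
        rw [smul2_smul_right]; rfl
      rw [Finset.sum_congr rfl fun b _ => h9 b]
      have h10 : ∑ b, smul2 X.par (tw X.par (X.par (0, c') + X.par (0, j))
            (dd (0, c) (dd (0, a) (GW 0 0))))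
          (X.R X.one b • dd (0, j) (dd (0, b) (dd (0, c') (GW 0 0)))) (y :: L)
          = smul2 X.par (tw X.par (X.par (0, c') + X.par (0, j))
            (dd (0, c) (dd (0, a) (GW 0 0))))
          (∑ b, X.R X.one b • dd (0, j) (dd (0, b) (dd (0, c') (GW 0 0)))) (y :: L) := by
        rw [smul2_sum_right]; simp
      have h11 : ∀ M : List X.V, (∀ x ∈ M, x.1 = 0) →
          (∑ b, X.R X.one b • dd (0, j) (dd (0, b) (dd (0, c') (GW 0 0)))) M
            = if M = [] then (X.R * X.η) c' j else 0 := by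
        intro M hM
        rw [← divisor_second h c' j M hM]
        simp only [Finset.sum_apply, Pi.smul_apply, smul_eq_mul, dd_apply]
      rw [h10, smul2_nil_right (fun x => x.1 = 0) (y :: L) hL]
      · rw [h11 [] (by simp), if_pos rfl]
        by_cases hz : (X.R * X.η) c' j = 0
        · rw [hz]; simp
        · have h12 : X.p c' + X.p j + 1 = X.D ∧ X.q c' + X.q j + 1 = X.D := by
            rw [Matrix.mul_apply] at hz
            obtain ⟨e, -, he⟩ := Finset.exists_ne_zero_of_sum_ne_zero hz
            have h13 := X.R_type _ _ (left_ne_zero_of_mul he)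
            have h14 := X.η_type _ _ (right_ne_zero_of_mul he)
            omega
          rw [tw_even]
          · simp only [dd_apply]; ring
          · simp only [Target.par]; omega
      · intro M hM hne
        rw [h11 M hM, if_neg hne]
    rw [Finset.sum_congr rfl fun c' _ => h8 c', ← Finset.sum_mul, ← Matrix.mul_apply,
      ← Matrix.mul_assoc]
    have h15 := X.inv_R_pow_eta 1
    rw [pow_one] at h15
    rw [h15, Matrix.transpose_apply]
  have h16 := Finset.sum_congr rfl fun c (_ : c ∈ (Finset.univ : Finset X.ι)) => h7 c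
  rw [← h16]

section two

variable {GW GW' : ℕ → ℕ → List X.V → ℂ}

lemma diff_ssym (h : IsGW X GW) (h' : IsGW X GW') (g d : ℕ) :
    SSym X.par (fun L => GW g d L - GW' g d L) := by
  intro K x y L
  simp only [h.symm g d K x y L, h'.symm g d K x y L]
  ring

lemma eq_of_perm (h : IsGW X GW) (h' : IsGW X GW') (g d : ℕ) {L M : List X.V}
    (hp : M.Perm L) (hM : GW g d M = GW' g d M) : GW g d L = GW' g d L := by
  have := perm_zero (diff_ssym h h' g d) hp (by simp only [hM, sub_self])
  exact sub_eq_zero.mp this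

lemma eq_of_mem {L : List X.V} (h : IsGW X GW) (h' : IsGW X GW') (g d : ℕ)
    {x : X.V} (hx : x ∈ L)
    (hM : ∀ M : List X.V, M.length + 1 = L.length → GW g d (x :: M) = GW' g d (x :: M)) :
    GW g d L = GW' g d L := by
  obtain ⟨K, M, rfl⟩ := List.append_of_mem hx
  refine eq_of_perm h h' g d (M := x :: (K ++ M)) List.perm_middle.symm (hM _ ?_)
  simp only [List.length_append, List.length_cons]
  omega

lemma eq_string (h : IsGW X GW) (h' : IsGW X GW') (g d : ℕ) (M : List X.V)
    (ih : ∀ N : List X.V, N.length = M.length → GW g d N = GW' g d N) :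
    GW g d ((0, X.one) :: M) = GW' g d ((0, X.one) :: M) := by
  rw [h.string, h'.string, low_congr M _ _ ih]

lemma eq_dilaton (h : IsGW X GW) (h' : IsGW X GW') (g d : ℕ) (M : List X.V)
    (ih : ∀ N : List X.V, N.length = M.length → GW g d N = GW' g d N) :
    GW g d ((1, X.one) :: M) = GW' g d ((1, X.one) :: M) := by
  rw [h.dilaton, h'.dilaton, ih M rfl]

lemma eq_trr (h : IsGW X GW) (h' : IsGW X GW') (m : ℕ) (a : X.ι) (x y : X.V) (M : List X.V)
    (ih : ∀ N : List X.V, N.length ≤ M.length + 2 → GW 0 0 N = GW' 0 0 N) :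
    GW 0 0 ((m + 1, a) :: x :: y :: M) = GW' 0 0 ((m + 1, a) :: x :: y :: M) := by
  have h1 := congrFun (h.trr 0 m a x y) M
  have h2 := congrFun (h'.trr 0 m a x y) M
  simp only [dd_apply, Finset.Nat.antidiagonal_zero, Finset.sum_singleton, Finset.sum_apply,
    Pi.smul_apply, smul_eq_mul] at h1 h2
  rw [h1, h2]
  refine Finset.sum_congr rfl fun c _ => Finset.sum_congr rfl fun c' _ => ?_
  congr 1
  refine smul2_congr_nil M (fun N hN => ?_) ?_ (fun N hN => ?_)
  · simp only [tw_apply, dd_apply]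
    rw [ih _ (by simp only [List.length_cons]; omega)]
  · simp only [tw_apply, dd_apply]
    rw [h.unstable0 _ (by simp), mul_zero]
  · simp only [dd_apply]
    exact ih _ (by simp only [List.length_cons]; omega)

end two

/-- The cohomology of `X` is spanned by the powers `amb i` of a class proportional to `c_1`, and
by primitive classes of degree `D`. -/
structure AmbPrim (X : Target) where
  amb : ℕ → X.ι
  c : ℂ
  c_ne : c ≠ 0
  amb_zero : amb 0 = X.one
  amb_deg : ∀ i, i ≤ X.D → X.p (amb i) + X.q (amb i) = 2 * i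
  R_amb : ∀ i, i + 1 ≤ X.D → ∀ b, X.R (amb i) b = if b = amb (i + 1) then c else 0
  R_top : ∀ b, X.R (amb X.D) b = 0
  cover : ∀ a, (∃ i, i ≤ X.D ∧ a = amb i) ∨ X.p a + X.q a = X.D

section amb

variable {GW GW' : ℕ → ℕ → List X.V → ℂ} (A : AmbPrim X)

include A

lemma wt_pos (hD : 3 ≤ X.D) (x : X.V) (h0 : x ≠ (0, X.one)) (h1 : x ≠ (1, X.one))
    (h2 : x ≠ (0, A.amb 1)) : 1 ≤ X.wt x := by
  obtain ⟨m, a⟩ := x
  rcases A.cover a with ⟨i, hi, rfl⟩ | ha
  · have hd := A.amb_deg i hi
    have e0 : ¬ (m = 0 ∧ i = 0) := by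
      rintro ⟨rfl, rfl⟩
      exact h0 (by rw [A.amb_zero])
    have e1 : ¬ (m = 1 ∧ i = 0) := by
      rintro ⟨rfl, rfl⟩
      exact h1 (by rw [A.amb_zero])
    have e2 : ¬ (m = 0 ∧ i = 1) := by
      rintro ⟨rfl, rfl⟩
      exact h2 rfl
    simp only [Target.wt]
    omega
  · simp only [Target.wt]
    omega

lemma wtL_ge (hD : 3 ≤ X.D) (L : List X.V) (h0 : (0, X.one) ∉ L) (h1 : (1, X.one) ∉ L)
    (h2 : (0, A.amb 1) ∉ L) : (L.length : ℤ) ≤ X.wtL L := by
  induction L with
  | nil => simp
  | cons x L ih =>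
    rw [wtL_cons]
    have := ih (fun h => h0 (List.mem_cons_of_mem _ h)) (fun h => h1 (List.mem_cons_of_mem _ h))
      (fun h => h2 (List.mem_cons_of_mem _ h))
    have hx := wt_pos A hD x (fun h => h0 (h ▸ List.mem_cons_self))
      (fun h => h1 (h ▸ List.mem_cons_self)) (fun h => h2 (h ▸ List.mem_cons_self))
    simp only [List.length_cons]
    push_cast
    omega

lemma R_sum {i : ℕ} (hi : i + 1 ≤ X.D) (f : X.ι → ℂ) :
    ∑ b, X.R (A.amb i) b * f b = A.c * f (A.amb (i + 1)) := by
  rw [Finset.sum_eq_single (A.amb (i + 1)), A.R_amb i hi, if_pos rfl]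
  · intro b _ hb
    rw [A.R_amb i hi, if_neg hb, zero_mul]
  · intro h
    exact absurd (Finset.mem_univ _) h

lemma R_sum_top (f : X.ι → ℂ) : ∑ b, X.R (A.amb X.D) b * f b = 0 :=
  Finset.sum_eq_zero fun b _ => by rw [A.R_top, zero_mul]

lemma eq_divisor (hD : 3 ≤ X.D) (h : IsGW X GW) (h' : IsGW X GW') (g d : ℕ) (M : List X.V)
    (ih : ∀ N : List X.V, N.length = M.length → GW g d N = GW' g d N) :
    GW g d ((0, A.amb 1) :: M) = GW' g d ((0, A.amb 1) :: M) := by
  have h1 := h.divisor g d M
  have h2 := h'.divisor g d M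
  rw [← A.amb_zero, R_sum A (by omega)] at h1 h2
  rw [ih M rfl, lowR_congr M _ _ ih, ← h2] at h1
  exact mul_left_cancel₀ A.c_ne h1

lemma eq_two_amb (h : IsGW X GW) (h' : IsGW X GW') (y : X.V) (M : List X.V)
    (hM : ∀ x ∈ y :: M, x.1 = 0)
    (ih : ∀ N : List X.V, N.length = M.length + 2 → GW 0 0 N = GW' 0 0 N) (i : ℕ)
    (hi : i ≤ X.D) (j : ℕ) (hj : j ≤ X.D) :
    GW 0 0 ((0, A.amb i) :: (0, A.amb j) :: y :: M)
      = GW' 0 0 ((0, A.amb i) :: (0, A.amb j) :: y :: M) := by
  induction i generalizing j with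
  | zero =>
    rw [A.amb_zero]
    exact eq_string h h' 0 0 _ (fun N hN => ih N (by simpa using hN))
  | succ i ih2 =>
    have h1 := move_c1 h (A.amb i) (A.amb j) y M hM
    have h2 := move_c1 h' (A.amb i) (A.amb j) y M hM
    rw [R_sum A hi (fun b => GW 0 0 ((0, b) :: (0, A.amb j) :: y :: M))] at h1
    rw [R_sum A hi (fun b => GW' 0 0 ((0, b) :: (0, A.amb j) :: y :: M))] at h2
    have h3 : ∑ b, X.R (A.amb j) b * GW 0 0 ((0, A.amb i) :: (0, b) :: y :: M)
        = ∑ b, X.R (A.amb j) b * GW' 0 0 ((0, A.amb i) :: (0, b) :: y :: M) := by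
      by_cases hj' : j + 1 ≤ X.D
      · rw [R_sum A hj' (fun b => GW 0 0 ((0, A.amb i) :: (0, b) :: y :: M)),
          R_sum A hj' (fun b => GW' 0 0 ((0, A.amb i) :: (0, b) :: y :: M)),
          ih2 (by omega) (j + 1) hj']
      · have : j = X.D := by omega
        rw [this, R_sum_top A (fun b => GW 0 0 ((0, A.amb i) :: (0, b) :: y :: M)),
          R_sum_top A (fun b => GW' 0 0 ((0, A.amb i) :: (0, b) :: y :: M))]
    rw [h3, ← h2] at h1
    exact mul_left_cancel₀ A.c_ne h1

lemma eq_vanish (hD : 3 ≤ X.D) (h : IsGW X GW) (g d : ℕ) (L : List X.V)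
    (hs : (1 - (g : ℤ)) * (X.D - 3) + X.c1 * d ≤ 0) (h0 : (0, X.one) ∉ L)
    (h1 : (1, X.one) ∉ L) (h2 : (0, A.amb 1) ∉ L) (hne : GW g d L ≠ 0) :
    L = [] ∧ (1 - (g : ℤ)) * (X.D - 3) + X.c1 * d = 0 := by
  have h3 := GW_wt h g d L hne
  have h4 := wtL_ge A hD L h0 h1 h2
  have h5 : X.wtL L = 2 * ((1 - (g : ℤ)) * (X.D - 3) + X.c1 * d) := by
    linear_combination h3
  have h6 : L.length = 0 := by omega
  have h7 := List.length_eq_zero_iff.mp h6
  refine ⟨h7, ?_⟩
  rw [h7, wtL_nil] at h5
  omega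

theorem eq_genus_zero (hD : 3 ≤ X.D) (h : IsGW X GW) (h' : IsGW X GW') (L : List X.V) :
    GW 0 0 L = GW' 0 0 L := by
  induction hn : L.length using Nat.strong_induction_on generalizing L with
  | _ n ih =>
  have ih' : ∀ N : List X.V, N.length < L.length → GW 0 0 N = GW' 0 0 N :=
    fun N hN => ih N.length (by omega) N rfl
  by_cases h2 : L.length ≤ 2
  · rw [h.unstable0 L h2, h'.unstable0 L h2]
  -- string and divisor
  by_cases hm1 : (0, X.one) ∈ L
  · refine eq_of_mem h h' 0 0 hm1 fun M hM => eq_string h h' 0 0 M fun N hN => ih' N (by omega)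
  by_cases hm2 : (0, A.amb 1) ∈ L
  · refine eq_of_mem h h' 0 0 hm2 fun M hM =>
      eq_divisor A hD h h' 0 0 M fun N hN => ih' N (by omega)
  by_cases hdesc : ∀ x ∈ L, x.1 = 0
  · -- no descendants
    have hm3 : (1, X.one) ∉ L := fun hmem => absurd (hdesc _ hmem) one_ne_zero
    obtain ⟨x1, x2, x3, M, rfl⟩ : ∃ x1 x2 x3 M, L = x1 :: x2 :: x3 :: M := by
      match L, h2 with
      | x1 :: x2 :: x3 :: M, _ => exact ⟨x1, x2, x3, M, rfl⟩
      | [], h2 => simp at h2
      | [x], h2 => simp at h2
      | [x, y], h2 => simp at h2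
    have key : ∀ (x1 x2 x3 : X.V) (i j : ℕ), x1 = (0, A.amb i) → x2 = (0, A.amb j) →
        i ≤ X.D → j ≤ X.D → (∀ x ∈ x3 :: M, x.1 = 0) →
        GW 0 0 (x1 :: x2 :: x3 :: M) = GW' 0 0 (x1 :: x2 :: x3 :: M) := by
      rintro x1 x2 x3 i j rfl rfl hi hj hx
      exact eq_two_amb A h h' x3 M hx
        (fun N hN => ih' N (by simp only [List.length_cons]; omega)) i hi j hj
    have d1 : x1.1 = 0 := hdesc _ (by simp)
    have d2 : x2.1 = 0 := hdesc _ (by simp)
    have d3 : x3.1 = 0 := hdesc _ (by simp)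
    have dM : ∀ x ∈ M, x.1 = 0 := fun x hx => hdesc _ (by simp [hx])
    have cons_hyp : ∀ y : X.V, y.1 = 0 → ∀ x ∈ y :: M, x.1 = 0 := by
      intro y hy x hx
      rcases List.mem_cons.mp hx with rfl | hx
      · exact hy
      · exact dM x hx
    have form : ∀ x : X.V, x.1 = 0 →
        (∃ i, i ≤ X.D ∧ x = (0, A.amb i)) ∨ X.wt x = X.D - 2 := by
      intro x hx
      obtain ⟨m, a⟩ := x
      simp only at hx
      subst hx
      rcases A.cover a with ⟨i, hi, rfl⟩ | ha
      · exact Or.inl ⟨i, hi, rfl⟩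
      · right
        simp only [Target.wt]
        omega
    have two_prim : ∀ x y z : X.V, X.wt x = X.D - 2 → X.wt y = X.D - 2 → 1 ≤ X.wt z →
        (x1 :: x2 :: x3 :: M).Perm (x :: y :: z :: M) →
        GW 0 0 (x1 :: x2 :: x3 :: M) = GW' 0 0 (x1 :: x2 :: x3 :: M) := by
      intro x y z hx hy hz hp
      have hwM : (M.length : ℤ) ≤ X.wtL M := by
        refine wtL_ge A hD M (fun h => hm1 (by simp [h])) (fun h => hm3 (by simp [h]))
          (fun h => hm2 (by simp [h]))
      have hno : ∀ (G : ℕ → ℕ → List X.V → ℂ), IsGW X G → G 0 0 (x :: y :: z :: M) = 0 := by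
        intro G hG
        by_contra hne
        have h3 := GW_wt hG 0 0 _ hne
        simp only [wtL_cons, hx, hy] at h3
        push_cast at h3
        have : (0 : ℤ) ≤ M.length := by positivity
        omega
      refine eq_of_perm h h' 0 0 hp.symm ?_
      rw [hno GW h, hno GW' h']
    have w3 : ∀ x ∈ x1 :: x2 :: x3 :: M, 1 ≤ X.wt x := fun x hx =>
      wt_pos A hD x (fun h => hm1 (h ▸ hx)) (fun h => hm3 (h ▸ hx)) (fun h => hm2 (h ▸ hx))
    have p132 : (x1 :: x2 :: x3 :: M).Perm (x1 :: x3 :: x2 :: M) :=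
      List.Perm.cons _ (List.Perm.swap _ _ _)
    have p231 : (x1 :: x2 :: x3 :: M).Perm (x2 :: x3 :: x1 :: M) :=
      (List.Perm.swap _ _ _).trans (List.Perm.cons _ (List.Perm.swap _ _ _))
    rcases form x1 d1 with ⟨i1, hi1, e1⟩ | e1 <;> rcases form x2 d2 with ⟨i2, hi2, e2⟩ | e2
    · exact key x1 x2 x3 i1 i2 e1 e2 hi1 hi2 (cons_hyp x3 d3)
    · rcases form x3 d3 with ⟨i3, hi3, e3⟩ | e3
      · exact eq_of_perm h h' 0 0 p132.symm
          (key x1 x3 x2 i1 i3 e1 e3 hi1 hi3 (cons_hyp x2 d2))
      · exact two_prim x2 x3 x1 e2 e3 (w3 _ (by simp)) p231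
    · rcases form x3 d3 with ⟨i3, hi3, e3⟩ | e3
      · exact eq_of_perm h h' 0 0 p231.symm
          (key x2 x3 x1 i2 i3 e2 e3 hi2 hi3 (cons_hyp x1 d1))
      · exact two_prim x1 x3 x2 e1 e3 (w3 _ (by simp)) p132
    · exact two_prim x1 x2 x3 e1 e2 (w3 _ (by simp)) (List.Perm.refl _)
  · -- descendants: the topological recursion relation
    push Not at hdesc
    obtain ⟨x, hx, hx1⟩ := hdesc
    obtain ⟨m, a⟩ := x
    obtain ⟨m, rfl⟩ : ∃ k, m = k + 1 := ⟨m - 1, by simp only at hx1; omega⟩
    refine eq_of_mem h h' 0 0 hx fun M hM => ?_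
    obtain ⟨y, z, M, rfl⟩ : ∃ y z N, M = y :: z :: N := by
      match M, hM with
      | y :: z :: M, _ => exact ⟨y, z, M, rfl⟩
      | [], hM => simp at hM; omega
      | [x], hM => simp at hM; omega
    exact eq_trr h h' m a y z M fun N hN =>
      ih' N (by simp only [List.length_cons] at hM ⊢; omega)

/-- Uniqueness of the correlators. -/
theorem gw_unique (hD : 3 ≤ X.D) (hc : X.c1 ≤ 2 - X.D) (h : IsGW X GW) (h' : IsGW X GW')
    (hN : X.D = 3 → ∀ g, 2 ≤ g → GW g 0 [] = GW' g 0 []) : GW = GW' := by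
  funext g d L
  by_cases hgd : g = 0 ∧ d = 0
  · obtain ⟨rfl, rfl⟩ := hgd
    exact eq_genus_zero A hD h h' L
  have hs : (1 - (g : ℤ)) * (X.D - 3) + X.c1 * d ≤ 0 := by
    have hD' : (0 : ℤ) ≤ (X.D : ℤ) - 3 := by omega
    rcases Nat.eq_zero_or_pos g with rfl | hg
    · have hd : 1 ≤ (d : ℤ) := by
        have : d ≠ 0 := fun h => hgd ⟨rfl, h⟩
        omega
      have h1 : X.c1 * d ≤ (2 - X.D) * 1 := by nlinarith
      push_cast
      linarith
    · have h1 : (1 - (g : ℤ)) * (X.D - 3) ≤ 0 := by
        apply mul_nonpos_of_nonpos_of_nonneg _ hD'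
        omega
      have h2 : X.c1 * d ≤ 0 := mul_nonpos_of_nonpos_of_nonneg (by omega) (by positivity)
      linarith
  induction hn : L.length using Nat.strong_induction_on generalizing L with
  | _ n ih =>
  have ih' : ∀ N : List X.V, N.length < L.length → GW g d N = GW' g d N :=
    fun N hN => ih N.length (by omega) N rfl
  by_cases hm1 : (0, X.one) ∈ L
  · exact eq_of_mem h h' g d hm1 fun M hM => eq_string h h' g d M fun N hN => ih' N (by omega)
  by_cases hm2 : (0, A.amb 1) ∈ L
  · exact eq_of_mem h h' g d hm2 fun M hM =>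
      eq_divisor A hD h h' g d M fun N hN => ih' N (by omega)
  by_cases hm3 : (1, X.one) ∈ L
  · exact eq_of_mem h h' g d hm3 fun M hM => eq_dilaton h h' g d M fun N hN => ih' N (by omega)
  by_cases hz : GW g d L = 0 ∧ GW' g d L = 0
  · rw [hz.1, hz.2]
  have hL : L = [] ∧ (1 - (g : ℤ)) * (X.D - 3) + X.c1 * d = 0 := by
    by_cases hz1 : GW g d L = 0
    · exact eq_vanish A hD h' g d L hs hm1 hm3 hm2 (fun hz2 => hz ⟨hz1, hz2⟩)
    · exact eq_vanish A hD h g d L hs hm1 hm3 hm2 hz1
  obtain ⟨rfl, hs0⟩ := hL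
  have hD' : (0 : ℤ) ≤ (X.D : ℤ) - 3 := by omega
  -- the remaining empty correlators
  have hd : d = 0 := by
    by_contra hd
    have hd : 1 ≤ (d : ℤ) := by omega
    rcases Nat.eq_zero_or_pos g with rfl | hg
    · have h1 : X.c1 * d ≤ (2 - X.D) * 1 := by nlinarith
      push_cast at hs0
      linarith
    · have h1 : (1 - (g : ℤ)) * (X.D - 3) ≤ 0 := by
        apply mul_nonpos_of_nonpos_of_nonneg _ hD'
        omega
      have h2 : X.c1 * d ≤ -1 := by nlinarith
      linarith
  subst hd
  rcases Nat.lt_or_ge g 2 with hg | hg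
  · have hg1 : g = 1 := by
      have : g ≠ 0 := fun h => hgd ⟨h, rfl⟩
      omega
    subst hg1
    rw [h.unstable1, h'.unstable1]
  · refine hN ?_ g hg
    by_contra hD3
    have hD4 : (1 : ℤ) ≤ (X.D : ℤ) - 3 := by omega
    have h1 : (1 - (g : ℤ)) * (X.D - 3) < 0 := by
      apply mul_neg_of_neg_of_pos
      · omega
      · omega
    push_cast at hs0
    linarith

end amb

end Vale.Agent.P269.H457
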