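import Vale.Agent.P269.H457.Unique

/-! Uniqueness for complete intersections (helper457). -/

set_option autoImplicit false

namespace Vale.Agent.P269.H457

open Vale.Agent.P269.H207 Vale.Agent.P269.H707 Finset

/-- the index of `h^i` -/
def ciAmb (D : ℕ) (ds : List ℕ) (i : ℕ) : CIIdx D ds :=
  if h : i < D + 1 then Sum.inl ⟨i, h⟩ else Sum.inl 0

lemma ciAmb_of_le {D : ℕ} (ds : List ℕ) {i : ℕ} (h : i ≤ D) :
    ciAmb D ds i = Sum.inl ⟨i, by omega⟩ := by
  rw [ciAmb, dif_pos (by omega)]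

lemma ciR_amb {D : ℕ} (ds : List ℕ) {i : ℕ} (hi : i + 1 ≤ D) :
    ciR D ds (ciAmb D ds i) (ciAmb D ds (i + 1)) = (ciC1 D ds : ℂ) := by
  rw [ciAmb_of_le ds (by omega), ciAmb_of_le ds hi]
  simp only [ciR, if_true]

lemma ciR_amb_ne {D : ℕ} (ds : List ℕ) {i : ℕ} (hi : i + 1 ≤ D) (b : CIIdx D ds)
    (hb : b ≠ ciAmb D ds (i + 1)) : ciR D ds (ciAmb D ds i) b = 0 := by
  rw [ciAmb_of_le ds hi] at hb
  rw [ciAmb_of_le ds (by omega)]
  rcases b with j | b
  · simp only [ciR]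
    rw [if_neg]
    intro hj
    apply hb
    congr 1
    exact Fin.ext hj
  · rfl

lemma ciR_top {D : ℕ} (ds : List ℕ) (b : CIIdx D ds) : ciR D ds (ciAmb D ds D) b = 0 := by
  rw [ciAmb_of_le ds (le_refl D)]
  rcases b with j | b
  · simp only [ciR]
    rw [if_neg (by have := j.2; omega)]
  · rfl

/-- the powers of the hyperplane class and the primitive classes of a complete intersection
with nonzero canonical class -/
noncomputable def ciAmbPrim {D : ℕ} {ds : List ℕ} (hD2 : 2 ≤ D) (hds : ∀ d ∈ ds, 1 ≤ d)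
    (hc : ciC1 D ds ≠ 0) : AmbPrim (ciTarget D ds hD2 hds) where
  amb := ciAmb D ds
  c := (ciC1 D ds : ℂ)
  c_ne := by exact_mod_cast hc
  amb_zero := ciAmb_of_le ds (Nat.zero_le D)
  amb_deg := by
    intro i hi
    have hi' : i ≤ D := hi
    show ciP D ds (ciAmb D ds i) + ciQ D ds (ciAmb D ds i) = 2 * i
    rw [ciAmb_of_le ds hi']
    simp only [ciP, ciQ]
    omega
  R_amb := by
    intro i hi b
    have hi' : i + 1 ≤ D := hi
    by_cases hb : b = ciAmb D ds (i + 1)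
    · rw [if_pos hb, hb]
      exact ciR_amb ds hi'
    · rw [if_neg hb]
      exact ciR_amb_ne ds hi' b hb
  R_top := fun b => ciR_top ds b
  cover := by
    intro a
    rcases (a : CIIdx D ds) with i | a
    · left
      have hi : (i : ℕ) ≤ D := by have := i.2; omega
      exact ⟨i, hi, (ciAmb_of_le ds hi).symm⟩
    · right
      show ciP D ds (Sum.inr a) + ciQ D ds (Sum.inr a) = D
      simp only [ciP, ciQ]
      have := a.1.2
      omega

/-- Uniqueness of the correlators of a complete intersection `X` of dimension `D ≥ 3` with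
`K_X = k h`, `k ≥ D - 2`, up to the numbers `⟨⟩_{g,0}`, `g ≥ 2`, if `D = 3`. -/
theorem gw_unique_ci {D : ℕ} {ds : List ℕ} {hD2 : 2 ≤ D} {hds : ∀ d ∈ ds, 1 ≤ d} (hD : 3 ≤ D)
    (hc : ciC1 D ds ≤ 2 - D) {GW GW' : ℕ → ℕ → List (ciTarget D ds hD2 hds).V → ℂ}
    (h : IsGW (ciTarget D ds hD2 hds) GW) (h' : IsGW (ciTarget D ds hD2 hds) GW')
    (hN : D = 3 → ∀ g, 2 ≤ g → GW g 0 [] = GW' g 0 []) : GW = GW' :=
  gw_unique (ciAmbPrim hD2 hds (by omega)) hD hc h h' hN

/-- Uniqueness of the genus zero, degree zero correlators of a complete intersection with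
nonzero canonical class. -/
theorem gw_unique_ci_zero {D : ℕ} {ds : List ℕ} {hD2 : 2 ≤ D} {hds : ∀ d ∈ ds, 1 ≤ d}
    (hD : 3 ≤ D) (hc : ciC1 D ds ≠ 0) {GW GW' : ℕ → ℕ → List (ciTarget D ds hD2 hds).V → ℂ}
    (h : IsGW (ciTarget D ds hD2 hds) GW) (h' : IsGW (ciTarget D ds hD2 hds) GW') :
    GW 0 0 = GW' 0 0 :=
  funext fun L => eq_genus_zero (ciAmbPrim hD2 hds hc) hD h h' L

end Vale.Agent.P269.H457
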